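import Vale.Agent.P066.Reducible

/-! The chromatic quasisymmetric function and its factorisation through a blown-up quotient. -/

open Finset Polynomial
open scoped Classical

noncomputable section

namespace Vale.Agent.P066

/-- Oriented edges `i < j ≤ h(i)` of the graph of `h`, written for 0-based `i`, `j`. -/
def Edge {n : ℕ} (h : Fin n → ℕ) (i j : Fin n) : Prop := i < j ∧ (j : ℕ) < h i

/-- The chromatic quasisymmetric function of the graph of `h`, in `N` variables. -/
def chromQ (n : ℕ) (h : Fin n → ℕ) (N : ℕ) : MvPolynomial (Fin N) ℤ[X] :=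
  ∑ f ∈ (univ : Finset (Fin n → Fin N)).filter (fun f => ∀ i j, Edge h i j → f i ≠ f j),
    MvPolynomial.C (X ^ #{p : Fin n × Fin n | Edge h p.1 p.2 ∧ f p.1 < f p.2}) *
      ∏ i, MvPolynomial.X (f i)

variable {n l N : ℕ}

def qpair (h : Fin n → ℕ) (f : Fin n → Fin N) (i j : Fin n) : ℤ[X] :=
  if Edge h i j then (if f i = f j then 0 else if f i < f j then X else 1) else 1

lemma prod_qpair (h : Fin n → ℕ) (f : Fin n → Fin N) :
    ∏ i, ∏ j, qpair h f i j = if ∀ i j, Edge h i j → f i ≠ f j then
      X ^ #{p : Fin n × Fin n | Edge h p.1 p.2 ∧ f p.1 < f p.2} else 0 := by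
  split_ifs with hp
  · rw [← Fintype.prod_prod_type', ← prod_const (b := (X : ℤ[X])), prod_filter]
    refine prod_congr rfl fun p _ => ?_
    unfold qpair
    by_cases he : Edge h p.1 p.2
    · simp [he, hp p.1 p.2 he]
    · simp [he]
  · push Not at hp
    obtain ⟨i, j, he, hf⟩ := hp
    exact prod_eq_zero (mem_univ i) (prod_eq_zero (mem_univ j) (by simp [qpair, he, hf]))

lemma prod_pairs_eq_pairW (A B : Finset (Fin N)) :
    ∏ x ∈ A, ∏ y ∈ B, (if x = y then (0 : ℤ[X]) else if x < y then X else 1) =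
      pairW True A B := by
  unfold pairW
  simp only [if_true]
  split_ifs with hd
  · rw [invc, ← prod_pow_eq_pow_sum]
    refine prod_congr rfl fun x hx => ?_
    rw [← prod_const (b := (X : ℤ[X])), prod_filter]
    refine prod_congr rfl fun y hy => ?_
    have : x ≠ y := fun e => disjoint_left.1 hd hx (e ▸ hy)
    simp [this]
  · obtain ⟨x, hxA, hxB⟩ := not_disjoint_iff.1 hd
    exact prod_eq_zero hxA (prod_eq_zero hxB (by simp))

/-- The generating polynomial of permutations of `k` letters by non-inversions. -/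
def permPoly (k : ℕ) : ℕ[X] :=
  ∑ σ : Equiv.Perm (Fin k), ∏ i, ∏ j, (if i < j ∧ σ i < σ j then X else 1)

lemma sum_equiv_within (A : Finset (Fin n)) (B : Finset (Fin N)) {k : ℕ} (hA : #A = k)
    (hB : #B = k) :
    ∑ g : {x // x ∈ A} ≃ {x // x ∈ B}, ∏ i, ∏ j,
        (if i < j ∧ (g i : Fin N) < g j then (X : ℤ[X]) else 1) = castZ (permPoly k) := by
  let e1 := A.orderIsoOfFin hA
  let e2 := B.orderIsoOfFin hB
  rw [permPoly, map_sum, ← Equiv.sum_comp (Equiv.equivCongr e1.toEquiv e2.toEquiv)]
  refine sum_congr rfl fun σ _ => ?_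
  rw [map_prod, ← e1.toEquiv.prod_comp]
  refine prod_congr rfl fun i _ => ?_
  rw [map_prod, ← e1.toEquiv.prod_comp]
  refine prod_congr rfl fun j _ => ?_
  rw [apply_ite castZ]
  simp [castZ]

def fib (π : Fin n → Fin l) (a : Fin l) : Finset (Fin n) := univ.filter fun i => π i = a

def within (π : Fin n → Fin l) (f : Fin n → Fin N) (a : Fin l) : ℤ[X] :=
  ∏ i ∈ fib π a, ∏ j ∈ fib π a, if i < j ∧ f i < f j then X else 1

lemma prod_qpair_eq {h : Fin n → ℕ} {π : Fin n → Fin l} {E : Fin l → Fin l → Prop}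
    (hblow : ∀ i j, Edge h i j ↔ (π i = π j ∧ i < j) ∨ E (π i) (π j))
    {f : Fin n → Fin N} (hinj : ∀ i j, π i = π j → f i = f j → i = j) :
    ∏ i, ∏ j, qpair h f i j =
      weight E (fun a => (fib π a).image f) * ∏ a, within π f a := by
  have injOn : ∀ a, Set.InjOn f (fib π a : Set (Fin n)) := by
    intro a i hi j hj e
    simp only [fib, coe_filter, mem_univ, true_and, Set.mem_ofPred_eq] at hi hj
    exact hinj i j (hi.trans hj.symm) e
  have L : ∀ F : Fin n → Fin n → ℤ[X],
      ∏ i, ∏ j, F i j = ∏ a, ∏ b, ∏ i ∈ fib π a, ∏ j ∈ fib π b, F i j := by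
    intro F
    rw [← prod_fiberwise (univ : Finset (Fin n)) π]
    refine prod_congr rfl fun a _ => ?_
    rw [prod_comm (s := (univ : Finset (Fin l)))]
    exact prod_congr rfl fun i _ => (prod_fiberwise (univ : Finset (Fin n)) π _).symm
  have R : ∏ a, within π f a = ∏ a, ∏ b, if a = b then within π f a else 1 := by simp
  rw [L, weight, R, ← prod_mul_distrib]
  refine prod_congr rfl fun a _ => ?_
  rw [← prod_mul_distrib]
  refine prod_congr rfl fun b _ => ?_
  by_cases hab : a = b
  · subst hab
    rw [if_pos rfl]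
    rcases (fib π a).eq_empty_or_nonempty with h0 | ⟨i0, hi0⟩
    · simp [within, h0, pairW_empty_left]
    have hpi : ∀ i ∈ fib π a, π i = a := fun i hi => by simpa [fib] using hi
    have hnE : ¬E a a := by
      intro he
      have : Edge h i0 i0 := (hblow i0 i0).2 (Or.inr (by rwa [hpi i0 hi0]))
      exact lt_irrefl _ this.1
    rw [pairW_false hnE, one_mul, within]
    refine prod_congr rfl fun i hi => prod_congr rfl fun j hj => ?_
    have he : Edge h i j ↔ i < j := by
      rw [hblow]; simp [hpi i hi, hpi j hj, hnE]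
    unfold qpair
    by_cases hij : i < j
    · have : f i ≠ f j := fun e => hij.ne (hinj i j ((hpi i hi).trans (hpi j hj).symm) e)
      simp [he, hij, this]
    · simp [he, hij]
  · rw [if_neg hab, mul_one]
    have hpi : ∀ a, ∀ i ∈ fib π a, π i = a := fun a i hi => by simpa [fib] using hi
    have he : ∀ i ∈ fib π a, ∀ j ∈ fib π b, (Edge h i j ↔ E a b) := by
      intro i hi j hj
      rw [hblow, hpi a i hi, hpi b j hj]
      simp [hab]
    by_cases hE : E a b
    · have : pairW (E a b) ((fib π a).image f) ((fib π b).image f) =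
          pairW True ((fib π a).image f) ((fib π b).image f) := by simp [pairW, hE]
      rw [this, ← prod_pairs_eq_pairW, prod_image (injOn a)]
      refine prod_congr rfl fun i hi => ?_
      rw [prod_image (injOn b)]
      refine prod_congr rfl fun j hj => ?_
      simp [qpair, he i hi j hj, hE]
    · rw [pairW_false hE]
      exact prod_eq_one fun i hi => prod_eq_one fun j hj => by simp [qpair, he i hi j hj, hE]

theorem chromQ_eq {h : Fin n → ℕ} {π : Fin n → Fin l} {E : Fin l → Fin l → Prop}
    (hblow : ∀ i j, Edge h i j ↔ (π i = π j ∧ i < j) ∨ E (π i) (π j)) :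
    chromQ n h N = MvPolynomial.C (castZ (∏ a, permPoly #(fib π a))) *
      gfun N (fun a => #(fib π a)) E := by
  let good := (univ : Finset (Fin n → Fin N)).filter fun f => ∀ i j, π i = π j → f i = f j → i = j
  let img : (Fin n → Fin N) → Fin l → Finset (Fin N) := fun f a => (fib π a).image f
  have hz : ∀ f : Fin n → Fin N, f ∉ good → ∏ i, ∏ j, qpair h f i j = 0 := by
    intro f hf
    simp only [good, mem_filter, mem_univ, true_and] at hf
    push Not at hf
    obtain ⟨i, j, hp, he, hne⟩ := hf
    rw [prod_qpair, if_neg]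
    intro hpr
    rcases hne.lt_or_gt with hij | hij
    · exact hpr i j ((hblow i j).2 (Or.inl ⟨hp, hij⟩)) he
    · exact hpr j i ((hblow j i).2 (Or.inl ⟨hp.symm, hij⟩)) he.symm
  have h1 : chromQ n h N = ∑ f ∈ good,
      MvPolynomial.C (∏ i, ∏ j, qpair h f i j) * ∏ i, MvPolynomial.X (f i) := by
    rw [sum_subset (subset_univ good) (fun f _ hf => by rw [hz f hf, map_zero, zero_mul]),
      chromQ, sum_filter]
    refine sum_congr rfl fun f _ => ?_
    rw [prod_qpair]
    split_ifs <;> simp
  have hgood : ∀ f ∈ good, ∀ a, Set.InjOn f (fib π a : Set (Fin n)) := by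
    intro f hf a i hi j hj e
    simp only [good, mem_filter, mem_univ, true_and] at hf
    simp only [fib, coe_filter, mem_univ, true_and, Set.mem_ofPred_eq] at hi hj
    exact hf i j (hi.trans hj.symm) e
  have himg : ∀ f ∈ good, img f ∈ asg N (fun a => #(fib π a)) := fun f hf =>
    mem_asg.2 fun a => card_image_of_injOn (hgood f hf a)
  rw [h1, ← sum_fiberwise_of_maps_to himg, gfun, mul_sum]
  refine sum_congr rfl fun S hS => ?_
  have hterm : ∀ f ∈ good.filter (fun f => img f = S),
      MvPolynomial.C (∏ i, ∏ j, qpair h f i j) * ∏ i, MvPolynomial.X (f i) =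
        MvPolynomial.C (∏ a, within π f a) * term E S := by
    intro f hf
    obtain ⟨hfg, hfS⟩ := mem_filter.1 hf
    have hi : ∀ i j, π i = π j → f i = f j → i = j := (mem_filter.1 hfg).2
    rw [prod_qpair_eq hblow hi, term, map_mul]
    have : ∏ i, (MvPolynomial.X (f i) : MvPolynomial (Fin N) ℤ[X]) = mono S := by
      rw [← hfS, mono, ← prod_fiberwise (univ : Finset (Fin n)) π]
      exact prod_congr rfl fun a _ => (prod_image (hgood f hfg a)).symm
    rw [this, show weight E (fun a => (fib π a).image f) = weight E S from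
      congrArg (weight E) hfS]
    ring
  rw [sum_congr rfl hterm, ← sum_mul, ← map_sum]
  congr 2
  rw [map_prod]
  have hc := mem_asg.1 hS
  have key : ∀ a, castZ (permPoly #(fib π a)) = ∑ g : {x // x ∈ fib π a} ≃ {x // x ∈ S a},
      ∏ i, ∏ j, (if i < j ∧ (g i : Fin N) < g j then (X : ℤ[X]) else 1) := fun a =>
    (sum_equiv_within _ _ rfl (hc a)).symm
  simp only [key]
  rw [prod_univ_sum]
  have hmemfib : ∀ i, i ∈ fib π (π i) := fun i => by simp [fib]
  let Φ : (∀ a, {x // x ∈ fib π a} ≃ {x // x ∈ S a}) → Fin n → Fin N := fun g i =>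
    g (π i) ⟨i, hmemfib i⟩
  have hΦ : ∀ g a (i : {x // x ∈ fib π a}), Φ g i = g a i := by
    rintro g a ⟨i, hi⟩
    obtain rfl : π i = a := by simpa [fib] using hi
    rfl
  symm
  refine sum_bij (fun g _ => Φ g) ?_ ?_ ?_ ?_
  · intro g _
    simp only [good, mem_filter, mem_univ, true_and]
    refine ⟨fun i j hp he => ?_, ?_⟩
    · have hj : j ∈ fib π (π i) := by simp [fib, hp]
      rw [hΦ g (π i) ⟨j, hj⟩] at he
      exact congrArg Subtype.val ((g (π i)).injective (Subtype.ext he))
    · funext a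
      ext x
      simp only [img, mem_image]
      constructor
      · rintro ⟨i, hi, rfl⟩
        rw [hΦ g a ⟨i, hi⟩]; exact (g a ⟨i, hi⟩).2
      · intro hx
        refine ⟨(g a).symm ⟨x, hx⟩, ((g a).symm ⟨x, hx⟩).2, ?_⟩
        rw [hΦ g a, Equiv.apply_symm_apply]
  · intro g _ g' _ e
    funext a
    refine Equiv.ext fun i => Subtype.ext ?_
    rw [← hΦ g a i, ← hΦ g' a i, e]
  · intro f hf
    obtain ⟨hfg, hfS⟩ := mem_filter.1 hf
    have hm : ∀ a, ∀ i : {x // x ∈ fib π a}, f i ∈ S a := fun a i => by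
      rw [← hfS]; exact mem_image_of_mem f i.2
    have hbij : ∀ a, Function.Bijective (fun i : {x // x ∈ fib π a} =>
        (⟨f i, hm a i⟩ : {x // x ∈ S a})) := by
      intro a
      refine ⟨fun i j e => Subtype.ext (hgood f hfg a i.2 j.2 (congrArg Subtype.val e)), ?_⟩
      rintro ⟨x, hx⟩
      rw [← hfS] at hx
      obtain ⟨i, hi, rfl⟩ := mem_image.1 hx
      exact ⟨⟨i, hi⟩, rfl⟩
    exact ⟨fun a => Equiv.ofBijective _ (hbij a), by simp, rfl⟩
  · intro g _
    refine prod_congr rfl fun a _ => ?_
    rw [within, ← prod_coe_sort (fib π a)]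
    refine prod_congr rfl fun i _ => ?_
    rw [← prod_coe_sort (fib π a)]
    refine prod_congr rfl fun j _ => ?_
    rw [hΦ g a i, hΦ g a j]
    simp

theorem chromQ_epositive {h : Fin n → ℕ} {π : Fin n → Fin l} {E : Fin l → Fin l → Prop}
    (hblow : ∀ i j, Edge h i j ↔ (π i = π j ∧ i < j) ∨ E (π i) (π j))
    (hred : Reducible (fun a => #(fib π a)) E) :
    EPositive n (chromQ n h) := by
  have hn : ∑ a, #(fib π a) = n := by
    refine ((card_eq_sum_card_fiberwise (s := (univ : Finset (Fin n))) (f := π)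
      (t := univ) (by simp)).symm).trans ?_
    simp
  have := (epositive_of_reducible hred).smul (∏ a, permPoly #(fib π a))
  rw [hn] at this
  exact this.congr fun N => chromQ_eq hblow

end Vale.Agent.P066
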