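import Vale.Agent.P066.Chrom

/-! An explicit non-abelian infinite family inside the reducible class. -/

open Finset Polynomial
open scoped Classical

noncomputable section

namespace Vale.Agent.P066

variable {l : ℕ}

def OutZero (w : Fin l → ℕ) (T : Finset (Fin l)) (x : Fin l) : Prop := x ∉ T ∧ w x = 0

/-- Path on three classes `a → b → c`, everything else isolated up to empty classes. -/
structure Path3 (w : Fin l → ℕ) (E : Fin l → Fin l → Prop) (a b c : Fin l) : Prop where
  ne : a ≠ b ∧ a ≠ c ∧ b ≠ c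
  ab : E a b
  bc : E b c
  only : ∀ x y, E x y → (x = a ∧ y = b) ∨ (x = b ∧ y = c) ∨
    OutZero w {a, b, c} x ∨ OutZero w {a, b, c} y

lemma Path3.flip {w : Fin l → ℕ} {E : Fin l → Fin l → Prop} {a b c : Fin l}
    (h : Path3 w E a b c) : Path3 w (fun x y => E y x) c b a := by
  obtain ⟨⟨n1, n2, n3⟩, hab, hbc, ho⟩ := h
  refine ⟨⟨n3.symm, n2.symm, n1.symm⟩, hbc, hab, fun x y he => ?_⟩
  have e : ({c, b, a} : Finset (Fin l)) = {a, b, c} := by ext; simp; tauto
  rw [e]
  rcases ho y x he with ⟨h1, h2⟩ | ⟨h1, h2⟩ | h | h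
  · exact Or.inr (Or.inl ⟨h2, h1⟩)
  · exact Or.inl ⟨h2, h1⟩
  · exact Or.inr (Or.inr (Or.inr h))
  · exact Or.inr (Or.inr (Or.inl h))

lemma Path3.moveHyp {w : Fin l → ℕ} {E : Fin l → Fin l → Prop} {a b c : Fin l}
    (h : Path3 w E a b c) (hle : w c ≤ w a + w b) : MoveHyp w E a b c := by
  obtain ⟨⟨n1, n2, n3⟩, hab, hbc, ho⟩ := h
  refine ⟨n1, n2, n3, fun x y hx hy => ⟨fun he => ?_, ?_⟩, fun d hda hdb hdc hd => ?_, hle⟩
  · rcases ho x y he with h | h | ⟨h, -⟩ | ⟨h, -⟩
    · exact Or.inl h
    · exact Or.inr h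
    · simp at h; tauto
    · simp at h; tauto
  · rintro (⟨rfl, rfl⟩ | ⟨rfl, rfl⟩) <;> assumption
  · have hno : ∀ x, x = a ∨ x = b → ¬E d x ∧ ¬E x d := by
      intro x hx
      constructor <;> intro he <;> rcases ho _ _ he with h | h | ⟨h, h'⟩ | ⟨h, h'⟩ <;>
        simp at * <;> tauto
    exact ⟨iff_of_false (hno a (Or.inl rfl)).1 (hno b (Or.inr rfl)).1,
      iff_of_false (hno a (Or.inl rfl)).2 (hno b (Or.inr rfl)).2⟩

lemma Path3.child {w : Fin l → ℕ} {E : Fin l → Fin l → Prop} {a b c : Fin l}
    (h : Path3 w E a b c) (i : ℕ) : Path3 (childW w a b c i) (childE E a b c) a b c := by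
  obtain ⟨⟨n1, n2, n3⟩, hab, hbc, ho⟩ := h
  refine ⟨⟨n1, n2, n3⟩, by simp [childE, hab], by simp [childE, hbc], fun x y he => ?_⟩
  have hout : ∀ z, OutZero w {a, b, c} z → OutZero (childW w a b c i) {a, b, c} z := by
    rintro z ⟨hz, hw⟩
    refine ⟨hz, ?_⟩
    simp at hz
    simp [childW, hz, hw]
  by_cases hT : (x = a ∨ x = b ∨ x = c) ∧ (y = a ∨ y = b ∨ y = c)
  · rw [childE, if_pos hT] at he
    rcases ho x y he with h | h | h | h
    · exact Or.inl h
    · exact Or.inr (Or.inl h)
    · exact Or.inr (Or.inr (Or.inl (hout x h)))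
    · exact Or.inr (Or.inr (Or.inr (hout y h)))
  · rw [childE, if_neg hT] at he
    have hr : ∀ z, OutZero w {a, b, c} (if z = b then c else z) →
        OutZero (childW w a b c i) {a, b, c} z := by
      intro z hz
      by_cases e : z = b
      · rw [if_pos e] at hz; exact absurd hz.1 (by simp)
      · rw [if_neg e] at hz; exact hout z hz
    rcases ho _ _ he with ⟨h1, h2⟩ | ⟨h1, h2⟩ | h | h
    · exfalso; apply hT
      split_ifs at h1 h2 <;> simp_all
    · exfalso; apply hT
      split_ifs at h1 h2 <;> simp_all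
    · exact Or.inr (Or.inr (Or.inl (hr x h)))
    · exact Or.inr (Or.inr (Or.inr (hr y h)))

set_option linter.unusedSimpArgs false

theorem Path3.reducible : ∀ (k : ℕ) {w : Fin l → ℕ} {E : Fin l → Fin l → Prop} {a b c : Fin l},
    Path3 w E a b c → w b + min (w a) (w c) ≤ k → Reducible w E := by
  intro k
  induction k using Nat.strong_induction_on with
  | _ k ih =>
    have base : ∀ {w : Fin l → ℕ} {E : Fin l → Fin l → Prop} {a b c : Fin l},
        Path3 w E a b c → w b = 0 → Reducible w E := by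
      intro w E a b c h h0
      refine .base w E fun x y he => ?_
      rcases h.only x y he with ⟨-, rfl⟩ | ⟨rfl, -⟩ | h | h
      · exact Or.inr h0
      · exact Or.inl h0
      · exact Or.inl h.2
      · exact Or.inr h.2
    have step : ∀ {w : Fin l → ℕ} {E : Fin l → Fin l → Prop} {a b c : Fin l},
        Path3 w E a b c → w c ≤ w a → w b + min (w a) (w c) ≤ k → Reducible w E := by
      intro w E a b c h hca hk
      by_cases hb : w b = 0
      · exact base h hb
      refine .move w E a b c (h.moveHyp (by omega)) fun i hib hic => ?_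
      refine ih (w c) (by omega) (h.child i) ?_
      simp only [childW, Function.update_self, Function.update_of_ne h.ne.2.2,
        Function.update_of_ne h.ne.2.1, Function.update_of_ne h.ne.1]
      omega
    intro w E a b c h hk
    by_cases hca : w c ≤ w a
    · exact step h hca hk
    · have := step h.flip (by omega) (by rw [min_comm]; exact hk)
      exact .flip w (fun x y => E y x) this

/-- Path on four classes `a → b → c → d`, everything else isolated up to empty classes. -/
structure Path4 (w : Fin l → ℕ) (E : Fin l → Fin l → Prop) (a b c d : Fin l) : Prop where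
  ne : a ≠ b ∧ a ≠ c ∧ a ≠ d ∧ b ≠ c ∧ b ≠ d ∧ c ≠ d
  ab : E a b
  bc : E b c
  cd : E c d
  only : ∀ x y, E x y → (x = a ∧ y = b) ∨ (x = b ∧ y = c) ∨ (x = c ∧ y = d) ∨
    OutZero w {a, b, c, d} x ∨ OutZero w {a, b, c, d} y

lemma Path4.flip {w : Fin l → ℕ} {E : Fin l → Fin l → Prop} {a b c d : Fin l}
    (h : Path4 w E a b c d) : Path4 w (fun x y => E y x) d c b a := by
  obtain ⟨⟨n1, n2, n3, n4, n5, n6⟩, hab, hbc, hcd, ho⟩ := h
  refine ⟨⟨n6.symm, n5.symm, n3.symm, n4.symm, n2.symm, n1.symm⟩, hcd, hbc, hab,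
    fun x y he => ?_⟩
  have e : ({d, c, b, a} : Finset (Fin l)) = {a, b, c, d} := by ext; simp; tauto
  rw [e]
  rcases ho y x he with ⟨h1, h2⟩ | ⟨h1, h2⟩ | ⟨h1, h2⟩ | h | h
  · exact Or.inr (Or.inr (Or.inl ⟨h2, h1⟩))
  · exact Or.inr (Or.inl ⟨h2, h1⟩)
  · exact Or.inl ⟨h2, h1⟩
  · exact Or.inr (Or.inr (Or.inr (Or.inr h)))
  · exact Or.inr (Or.inr (Or.inr (Or.inl h)))

lemma Path4.step {w : Fin l → ℕ} {E : Fin l → Fin l → Prop} {a b c d : Fin l}
    (h : Path4 w E a b c d) (hle : w c ≤ w a + w b) : Reducible w E := by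
  obtain ⟨⟨n1, n2, n3, n4, n5, n6⟩, hab, hbc, hcd, ho⟩ := h
  have hno : ∀ x y, x ∈ ({a, b, c, d} : Finset (Fin l)) → y ∈ ({a, b, c, d} : Finset (Fin l)) →
      E x y → (x = a ∧ y = b) ∨ (x = b ∧ y = c) ∨ (x = c ∧ y = d) := by
    intro x y hx hy he
    rcases ho x y he with h | h | h | ⟨h, -⟩ | ⟨h, -⟩
    · exact Or.inl h
    · exact Or.inr (Or.inl h)
    · exact Or.inr (Or.inr h)
    · exact absurd hx h
    · exact absurd hy h
  have hmv : MoveHyp w E a b c := by
    refine ⟨n1, n2, n4, fun x y hx hy => ⟨fun he => ?_, ?_⟩, fun z hza hzb hzc hz => ?_, hle⟩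
    · rcases hno x y (by simp; tauto) (by simp; tauto) he with h | h | ⟨-, h⟩
      · exact Or.inl h
      · exact Or.inr h
      · subst h; rcases hy with h | h | h
        · exact absurd h.symm n3
        · exact absurd h.symm n5
        · exact absurd h.symm n6
    · rintro (⟨rfl, rfl⟩ | ⟨rfl, rfl⟩) <;> assumption
    · have hno' : ∀ x, x = a ∨ x = b → ¬E z x ∧ ¬E x z := by
        intro x hx
        constructor <;> intro he <;> rcases ho _ _ he with h | h | h | ⟨h, h'⟩ | ⟨h, h'⟩ <;>
          simp at * <;> rcases hx with rfl | rfl <;> simp_all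
      exact ⟨iff_of_false (hno' a (Or.inl rfl)).1 (hno' b (Or.inr rfl)).1,
        iff_of_false (hno' a (Or.inl rfl)).2 (hno' b (Or.inr rfl)).2⟩
  refine .move w E a b c hmv fun i hib hic => ?_
  set E' := childE E a b c with hE'
  set w' := childW w a b c i with hw'
  have hcd' : E' c d := by simp [hE', childE, hcd, n3.symm, n4.symm, n5.symm, n6.symm]
  have hbd' : E' b d := by simp [hE', childE, hcd, n3.symm, n5.symm, n6.symm]
  have hab' : E' a b := by simp [hE', childE, hab]
  have hbc' : E' b c := by simp [hE', childE, hbc]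
  have only' : ∀ x y, E' x y → (x = a ∧ y = b) ∨ (x = b ∧ y = c) ∨ (x = c ∧ y = d) ∨
      (x = b ∧ y = d) ∨ OutZero w' {a, b, c, d} x ∨ OutZero w' {a, b, c, d} y := by
    intro x y he
    have hout : ∀ z, OutZero w {a, b, c, d} z → OutZero w' {a, b, c, d} z := by
      rintro z ⟨hz, hw⟩
      refine ⟨hz, ?_⟩
      simp at hz
      simp [hw', childW, hz, hw]
    by_cases hT : (x = a ∨ x = b ∨ x = c) ∧ (y = a ∨ y = b ∨ y = c)
    · rw [hE', childE, if_pos hT] at he
      rcases ho x y he with h | h | h | h | h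
      · exact Or.inl h
      · exact Or.inr (Or.inl h)
      · exact Or.inr (Or.inr (Or.inl h))
      · exact Or.inr (Or.inr (Or.inr (Or.inr (Or.inl (hout x h)))))
      · exact Or.inr (Or.inr (Or.inr (Or.inr (Or.inr (hout y h)))))
    · rw [hE', childE, if_neg hT] at he
      have hr : ∀ z, OutZero w {a, b, c, d} (if z = b then c else z) →
          OutZero w' {a, b, c, d} z := by
        intro z hz
        by_cases e : z = b
        · rw [if_pos e] at hz; exact absurd hz.1 (by simp)
        · rw [if_neg e] at hz; exact hout z hz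
      rcases ho _ _ he with ⟨h1, h2⟩ | ⟨h1, h2⟩ | ⟨h1, h2⟩ | h | h
      · exfalso; apply hT
        split_ifs at h1 h2 <;> simp_all
      · exfalso; apply hT
        split_ifs at h1 h2 <;> simp_all
      · split_ifs at h1 h2 <;> simp_all
      · exact Or.inr (Or.inr (Or.inr (Or.inr (Or.inl (hr x h)))))
      · exact Or.inr (Or.inr (Or.inr (Or.inr (Or.inr (hr y h)))))
  have hno2 : ∀ x y, E' x y → x ∉ ({a, b, c, d} : Finset (Fin l)) → w' x ≠ 0 →
      y ∈ ({a, b, c, d} : Finset (Fin l)) → False := by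
    intro x y he hx hwx hy
    rcases only' x y he with h | h | h | h | ⟨-, h⟩ | ⟨h, -⟩
    · exact hx (by simp [h.1])
    · exact hx (by simp [h.1])
    · exact hx (by simp [h.1])
    · exact hx (by simp [h.1])
    · exact hwx h
    · exact h hy
  have hno3 : ∀ x y, E' y x → x ∉ ({a, b, c, d} : Finset (Fin l)) → w' x ≠ 0 →
      y ∈ ({a, b, c, d} : Finset (Fin l)) → False := by
    intro x y he hx hwx hy
    rcases only' y x he with h | h | h | h | ⟨h, -⟩ | ⟨-, h⟩
    · exact hx (by simp [h.2])
    · exact hx (by simp [h.2])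
    · exact hx (by simp [h.2])
    · exact hx (by simp [h.2])
    · exact h hy
    · exact hwx h
  have hin : ∀ x y, E' x y → x ∈ ({a, b, c, d} : Finset (Fin l)) →
      y ∈ ({a, b, c, d} : Finset (Fin l)) →
      (x = a ∧ y = b) ∨ (x = b ∧ y = c) ∨ (x = c ∧ y = d) ∨ (x = b ∧ y = d) := by
    intro x y he hx hy
    rcases only' x y he with h | h | h | h | ⟨h, -⟩ | ⟨h, -⟩
    · exact Or.inl h
    · exact Or.inr (Or.inl h)
    · exact Or.inr (Or.inr (Or.inl h))
    · exact Or.inr (Or.inr (Or.inr h))
    · exact absurd hx h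
    · exact absurd hy h
  have hmg : MergeHyp w' E' c d := by
    refine ⟨n6, hcd', ⟨?_, ?_, ?_⟩, fun z hzc hzd hz => ?_⟩
    · intro he; rcases hin _ _ he (by simp) (by simp) with h | h | h | h <;>
        simp [n1, n2, n3, n4, n5, n6, n1.symm, n2.symm, n3.symm, n4.symm, n5.symm, n6.symm] at h
    · intro he; rcases hin _ _ he (by simp) (by simp) with h | h | h | h <;>
        simp [n1, n2, n3, n4, n5, n6, n1.symm, n2.symm, n3.symm, n4.symm, n5.symm, n6.symm] at h
    · intro he; rcases hin _ _ he (by simp) (by simp) with h | h | h | h <;>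
        simp [n1, n2, n3, n4, n5, n6, n1.symm, n2.symm, n3.symm, n4.symm, n5.symm, n6.symm] at h
    by_cases hz' : z ∈ ({a, b, c, d} : Finset (Fin l))
    · simp only [mem_insert, mem_singleton] at hz'
      rcases hz' with rfl | rfl | rfl | rfl
      · constructor <;> constructor <;> intro he <;>
          rcases hin _ _ he (by simp) (by simp) with h | h | h | h <;>
        simp [n1, n2, n3, n4, n5, n6, n1.symm, n2.symm, n3.symm, n4.symm, n5.symm, n6.symm] at h
      · refine ⟨iff_of_true hbc' hbd', ?_⟩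
        constructor <;> intro he <;>
          rcases hin _ _ he (by simp) (by simp) with h | h | h | h <;>
        simp [n1, n2, n3, n4, n5, n6, n1.symm, n2.symm, n3.symm, n4.symm, n5.symm, n6.symm] at h
      · exact absurd rfl hzc
      · exact absurd rfl hzd
    · exact ⟨iff_of_false (fun he => hno2 _ _ he hz' hz (by simp))
        (fun he => hno2 _ _ he hz' hz (by simp)),
        iff_of_false (fun he => hno3 _ _ he hz' hz (by simp))
        (fun he => hno3 _ _ he hz' hz (by simp))⟩
  refine .merge w' E' c d hmg (Path3.reducible _ (a := a) (b := b) (c := c) ?_ le_rfl)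
  refine ⟨⟨n1, n2, n4⟩, hab', hbc', fun x y he => ?_⟩
  have hout : ∀ z, OutZero w' {a, b, c, d} z ∨ z = d → OutZero (mergeW w' c d) {a, b, c} z := by
    rintro z (⟨hz, hw⟩ | rfl)
    · simp at hz
      exact ⟨by simp [hz], by simp [mergeW, hz, hw]⟩
    · exact ⟨by simp [n3.symm, n5.symm, n6.symm], by simp [mergeW]⟩
  rcases only' x y he with h | h | ⟨-, h⟩ | ⟨-, h⟩ | h | h
  · exact Or.inl h
  · exact Or.inr (Or.inl h)
  · exact Or.inr (Or.inr (Or.inr (hout y (Or.inr h))))
  · exact Or.inr (Or.inr (Or.inr (hout y (Or.inr h))))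
  · exact Or.inr (Or.inr (Or.inl (hout x (Or.inl h))))
  · exact Or.inr (Or.inr (Or.inr (hout y (Or.inl h))))

theorem Path4.reducible {w : Fin l → ℕ} {E : Fin l → Fin l → Prop} {a b c d : Fin l}
    (h : Path4 w E a b c d) : Reducible w E := by
  by_cases hle : w c ≤ w a + w b
  · exact h.step hle
  · exact .flip w (fun x y => E y x) (h.flip.step (by omega))

/-- Consecutive classes adjacent. -/
def pathE5 (x y : Fin 5) : Prop := (y : ℕ) = x + 1

lemma reducible_five {a b d e : ℕ} (hab : 1 ≤ a + b) : Reducible ![a, b, 1, d, e] pathE5 := by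
  refine .move _ _ 0 1 2 ⟨by decide, by decide, by decide, ?_, ?_, by simpa using hab⟩
    fun i hib his => ?_
  · intro x y; fin_cases x <;> fin_cases y <;> simp [pathE5]
  · intro c; fin_cases c <;> simp [pathE5]
  simp only [Matrix.cons_val_one, Matrix.cons_val_zero, Matrix.cons_val] at his
  interval_cases i
  · refine Path3.reducible _ (a := (2 : Fin 5)) (b := 3) (c := 4) ?_ le_rfl
    refine ⟨by decide, by simp [childE, pathE5], by simp [childE, pathE5], ?_⟩
    intro x y; fin_cases x <;> fin_cases y <;> simp [childE, childW, pathE5, OutZero]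
  · refine Path4.reducible (a := (0 : Fin 5)) (b := 1) (c := 3) (d := 4) ?_
    refine ⟨by decide, by simp [childE, pathE5], by simp [childE, pathE5],
      by simp [childE, pathE5], ?_⟩
    intro x y; fin_cases x <;> fin_cases y <;> simp [childE, childW, pathE5, OutZero]

/-- Two chains of two cliques glued at a single vertex. -/
def gluedH (a b d e : ℕ) (i : Fin (a + b + 1 + d + e)) : ℕ :=
  if (i : ℕ) < a then a + b
  else if (i : ℕ) < a + b then a + b + 1
  else if (i : ℕ) < a + b + 1 then a + b + 1 + d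
  else a + b + 1 + d + e

theorem gluedH_epositive (a b d e : ℕ) (hab : 1 ≤ a + b) :
    EPositive (a + b + 1 + d + e) (chromQ _ (gluedH a b d e)) := by
  let π : Fin (a + b + 1 + d + e) → Fin 5 := fun i =>
    if (i : ℕ) < a then 0 else if (i : ℕ) < a + b then 1 else if (i : ℕ) < a + b + 1 then 2
      else if (i : ℕ) < a + b + 1 + d then 3 else 4
  refine chromQ_epositive (π := π) (E := pathE5) ?_ ?_
  · intro i j
    have hi := i.2
    have hj := j.2
    simp only [Edge, gluedH, π, pathE5, Fin.lt_def]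
    split_ifs <;> simp <;> omega
  · have : (fun x => #(fib π x)) = ![a, b, 1, d, e] := by
      funext x
      have key : ∀ lo hi : ℕ, hi ≤ a + b + 1 + d + e →
          #{i : Fin (a + b + 1 + d + e) | lo ≤ (i : ℕ) ∧ (i : ℕ) < hi} = hi - lo := by
        intro lo hi hhi
        rw [← card_map Fin.valEmbedding, ← Nat.card_Ico lo hi]
        congr 1
        ext k
        simp only [Finset.mem_map, mem_filter, mem_univ, true_and, Fin.valEmbedding_apply,
          mem_Ico]
        exact ⟨fun ⟨i, hi, e⟩ => e ▸ hi, fun hk => ⟨⟨k, hk.2.trans_le hhi⟩, hk, rfl⟩⟩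
      have conv : ∀ lo hi : ℕ, (∀ i : Fin (a + b + 1 + d + e),
          π i = x ↔ lo ≤ (i : ℕ) ∧ (i : ℕ) < hi) → hi ≤ a + b + 1 + d + e →
          #(fib π x) = hi - lo := by
        intro lo hi hiff hhi
        rw [← key lo hi hhi]
        exact congrArg card (filter_congr fun i _ => hiff i)
      fin_cases x
      · rw [conv 0 a] <;> (try simp [π]) <;> intros <;> (try split_ifs) <;> (try simp) <;> omega
      · rw [conv a (a + b)] <;> (try simp [π]) <;> intros <;> (try split_ifs) <;> (try simp) <;> omega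
      · rw [conv (a + b) (a + b + 1)] <;> simp [π] <;> intros <;> (try split_ifs) <;>
          (try simp) <;> omega
      · rw [conv (a + b + 1) (a + b + 1 + d)] <;> simp [π] <;> intros <;> (try split_ifs) <;>
          (try simp) <;> omega
      · rw [conv (a + b + 1 + d) (a + b + 1 + d + e)] <;> simp [π] <;> intros <;>
          (try split_ifs) <;> (try simp) <;> omega
    rw [this]
    exact reducible_five hab

end Vale.Agent.P066
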