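import Mathlib

/-! Local identity behind the twin-class move for chromatic quasisymmetric functions. -/

open Finset Polynomial

namespace Vale.Agent.P066

variable {α : Type*} [LinearOrder α]

def invc (A B : Finset α) : ℕ := ∑ x ∈ A, #{y ∈ B | x < y}

lemma invc_eq_right (A B : Finset α) : invc A B = ∑ y ∈ B, #{x ∈ A | x < y} := by
  unfold invc
  simp only [card_filter]
  exact Finset.sum_comm

lemma invc_union_left {A A' : Finset α} (h : Disjoint A A') (B : Finset α) :
    invc (A ∪ A') B = invc A B + invc A' B := Finset.sum_union h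

lemma invc_union_right (A : Finset α) {B B' : Finset α} (h : Disjoint B B') :
    invc A (B ∪ B') = invc A B + invc A B' := by
  simp only [invc_eq_right, Finset.sum_union h]

lemma invc_self (A : Finset α) : invc A A = (#A).choose 2 := by
  induction A using Finset.induction_on_max with
  | empty => simp [invc]
  | insert a s hs ih =>
    have ha : a ∉ s := fun h => lt_irrefl a (hs a h)
    have h1 : invc s ({a} : Finset α) = #s := by
      rw [invc, card_eq_sum_ones]
      refine sum_congr rfl fun x hx => ?_
      simp [filter_singleton, hs x hx]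
    have h2 : invc ({a} : Finset α) (insert a s) = 0 := by
      simp only [invc, sum_singleton, card_eq_zero, filter_eq_empty_iff, mem_insert]
      rintro y (rfl | hy)
      · exact lt_irrefl _
      · exact (hs y hy).asymm
    have hd : Disjoint s ({a} : Finset α) := by simpa using ha
    have e : insert a s = s ∪ {a} := by rw [union_comm]; rfl
    have h3 : (#s + 1).choose 2 = #s + (#s).choose 2 := by
      rw [Nat.choose_succ_succ', Nat.choose_one_right]
    rw [card_insert_of_notMem ha, h3, e,
      invc_union_left hd, ← e, h2, e, invc_union_right s hd, ih, h1]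
    omega

lemma ico_consR {a b : ℕ} (h : a ≤ b) :
    b ::ₘ Multiset.Ico a b = Multiset.Ico a (b + 1) := by
  refine (Multiset.Nodup.ext ?_ ?_).2 fun x => ?_
  · exact Multiset.nodup_cons.2 ⟨by simp, Multiset.nodup_Ico⟩
  · exact Multiset.nodup_Ico
  · simp only [Multiset.mem_cons, Multiset.mem_Ico]
    omega

lemma ico_consL {a b : ℕ} (h : a < b) :
    a ::ₘ Multiset.Ico (a + 1) b = Multiset.Ico a b := by
  refine (Multiset.Nodup.ext ?_ ?_).2 fun x => ?_
  · exact Multiset.nodup_cons.2 ⟨by simp, Multiset.nodup_Ico⟩
  · exact Multiset.nodup_Ico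
  · simp only [Multiset.mem_cons, Multiset.mem_Ico]
    omega

def phiW (D C : Finset α) (y : α) : ℕ := #{d ∈ D | d < y} + #{c ∈ C | y < c}

lemma phi_key_aux (U : Finset α) : ∀ D C : Finset α, D ∪ C = U →
    (D \ C).val.map (phiW D C) + Multiset.Ico (#D) (#C)
      = (C \ D).val.map (phiW D C) + Multiset.Ico (#C) (#D) := by
  induction U using Finset.induction_on_max with
  | empty =>
    intro D C h
    obtain ⟨rfl, rfl⟩ := union_eq_empty.1 h
    simp
  | insert a U hU ih =>
    intro D C h
    have haU : a ∉ U := fun h => lt_irrefl a (hU a h)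
    have hle : ∀ x, x ∈ D ∪ C → x ≤ a := by
      intro x hx
      rw [h, mem_insert] at hx
      rcases hx with rfl | hx
      · exact le_rfl
      · exact (hU x hx).le
    have hsub : D.erase a ∪ C.erase a = U := by
      rw [← erase_union_distrib, h, erase_insert haU]
    have hI := ih (D.erase a) (C.erase a) hsub
    have phiD : ∀ x, x ≤ a → #{d ∈ D | d < x} = #{d ∈ D.erase a | d < x} := by
      intro x hx
      rw [filter_erase, erase_eq_of_notMem]
      simp [hx.not_gt]
    have phiC : ∀ x, x < a → #{c ∈ C | x < c} =
        #{c ∈ C.erase a | x < c} + (if a ∈ C then 1 else 0) := by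
      intro x hx
      rw [filter_erase]
      split_ifs with haC
      · rw [card_erase_add_one (by simp [haC, hx])]
      · rw [erase_eq_of_notMem (by simp [haC]), add_zero]
    have phiA : phiW D C a = #(D.erase a) := by
      have h0 : {c ∈ C | a < c} = ∅ := by
        rw [filter_eq_empty_iff]
        exact fun c hc => (hle c (mem_union_right _ hc)).not_gt
      have h1 : {d ∈ D | d < a} = D.erase a := by
        ext d
        simp only [mem_filter, mem_erase]
        constructor
        · exact fun ⟨hd, hl⟩ => ⟨hl.ne, hd⟩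
        · exact fun ⟨hne, hd⟩ => ⟨hd, lt_of_le_of_ne (hle d (mem_union_left _ hd)) hne⟩
      rw [phiW, h0, h1, card_empty, add_zero]
    have phiX : ∀ x, x ∈ D.erase a ∪ C.erase a → phiW D C x =
        phiW (D.erase a) (C.erase a) x + (if a ∈ C then 1 else 0) := by
      intro x hx
      rw [hsub] at hx
      unfold phiW
      rw [phiD x (hU x hx).le, phiC x (hU x hx)]
      omega
    have mapX : ∀ S : Finset α, S ⊆ D.erase a ∪ C.erase a → S.val.map (phiW D C) =
        (S.val.map (phiW (D.erase a) (C.erase a))).map (fun k => k + if a ∈ C then 1 else 0) := by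
      intro S hS
      rw [Multiset.map_map]
      exact Multiset.map_congr rfl fun x hx => phiX x (hS hx)
    have hDC : D.erase a \ C.erase a ⊆ D.erase a ∪ C.erase a :=
      sdiff_subset.trans subset_union_left
    have hCD : C.erase a \ D.erase a ⊆ D.erase a ∪ C.erase a :=
      sdiff_subset.trans subset_union_right
    have hmem : a ∈ D ∨ a ∈ C := by
      rw [← mem_union, h]; exact mem_insert_self _ _
    by_cases haC : a ∈ C <;> by_cases haD : a ∈ D
    · have e1 : D \ C = D.erase a \ C.erase a := by
        ext x; by_cases hx : x = a <;> simp [hx, haC, haD]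
      have e2 : C \ D = C.erase a \ D.erase a := by
        ext x; by_cases hx : x = a <;> simp [hx, haC, haD]
      have := congrArg (Multiset.map (· + 1)) hI
      rw [Multiset.map_add, Multiset.map_add, Multiset.map_add_right_Ico,
        Multiset.map_add_right_Ico, card_erase_add_one haD, card_erase_add_one haC] at this
      rw [e1, e2, mapX _ hDC, mapX _ hCD]
      simpa [haC] using this
    · have e1 : D \ C = D.erase a \ C.erase a := by
        ext x; by_cases hx : x = a <;> simp [hx, haC, haD]
      have e2 : C \ D = insert a (C.erase a \ D.erase a) := by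
        ext x; by_cases hx : x = a <;> simp [hx, haC, haD]
      have hn : a ∉ C.erase a \ D.erase a := by simp
      have := congrArg (Multiset.map (· + 1)) hI
      rw [Multiset.map_add, Multiset.map_add, Multiset.map_add_right_Ico,
        Multiset.map_add_right_Ico, card_erase_add_one haC] at this
      rw [e1, e2, insert_val_of_notMem hn, Multiset.map_cons, mapX _ hDC, mapX _ hCD, phiA]
      rw [erase_eq_of_notMem haD] at this ⊢
      simp only [haC, if_true]
      rcases le_or_gt (#C) (#D) with hle' | hlt
      · rw [Multiset.Ico_eq_zero_of_le (show #C ≤ #D + 1 by omega), add_zero,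
          ← ico_consR hle'] at this
        · rw [Multiset.Ico_eq_zero_of_le hle', add_zero, this]
          simp [Multiset.add_cons]
      · rw [Multiset.Ico_eq_zero_of_le (show #D ≤ #C by omega), add_zero]
        rw [Multiset.Ico_eq_zero_of_le (show #D + 1 ≤ #C by omega), add_zero] at this
        rw [← ico_consL hlt, ← this]
        simp [Multiset.cons_add, Multiset.add_cons]
    · have e1 : D \ C = insert a (D.erase a \ C.erase a) := by
        ext x; by_cases hx : x = a <;> simp [hx, haC, haD]
      have e2 : C \ D = C.erase a \ D.erase a := by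
        ext x; by_cases hx : x = a <;> simp [hx, haC, haD]
      have hn : a ∉ D.erase a \ C.erase a := by simp
      rw [e1, e2, insert_val_of_notMem hn, Multiset.map_cons, mapX _ hDC, mapX _ hCD, phiA]
      simp only [haC, if_false, add_zero, Multiset.map_id']
      rw [erase_eq_of_notMem haC] at hI ⊢
      rw [← card_erase_add_one haD]
      rcases le_or_gt (#C) #(D.erase a) with hle' | hlt
      · rw [Multiset.Ico_eq_zero_of_le hle', add_zero] at hI
        rw [Multiset.Ico_eq_zero_of_le (show #C ≤ #(D.erase a) + 1 by omega), add_zero,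
          ← ico_consR hle', hI]
        simp [Multiset.add_cons]
      · rw [Multiset.Ico_eq_zero_of_le (show #(D.erase a) + 1 ≤ #C by omega), add_zero]
        rw [← ico_consL hlt, Multiset.Ico_eq_zero_of_le hlt.le, add_zero,
          Multiset.add_cons] at hI
        rw [← hI]
        simp [Multiset.cons_add]
    · exact absurd hmem (by tauto)

lemma phi_key (D C : Finset α) (h : #C ≤ #D) :
    (D \ C).val.map (phiW D C) = (C \ D).val.map (phiW D C) + Multiset.Ico (#C) (#D) := by
  have := phi_key_aux _ D C rfl
  rwa [Multiset.Ico_eq_zero_of_le h, add_zero] at this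

lemma esymm_add {R : Type*} [CommSemiring R] (s t : Multiset R) : ∀ k,
    (s + t).esymm k = ∑ p ∈ antidiagonal k, s.esymm p.1 * t.esymm p.2 := by
  induction s using Multiset.induction_on with
  | empty =>
    intro k
    rw [zero_add, sum_eq_single (0, k)]
    · simp [Multiset.esymm]
    · rintro ⟨i, j⟩ hp hne
      obtain _ | i := i
      · simp_all
      · simp [Multiset.esymm, Multiset.powersetCard_zero_right]
    · simp
  | cons a s ih =>
    intro k
    cases k with
    | zero => simp [Multiset.esymm]
    | succ k =>
      have hc : ∀ (u : Multiset R) (j : ℕ),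
          (a ::ₘ u).esymm (j + 1) = u.esymm (j + 1) + a * u.esymm j := by
        intro u j
        simp [Multiset.esymm, Multiset.powersetCard_cons, Multiset.sum_map_mul_left]
      rw [Multiset.cons_add, hc, ih, ih, Nat.sum_antidiagonal_succ, Nat.sum_antidiagonal_succ]
      simp only [hc, add_mul, sum_add_distrib, mul_sum, mul_assoc]
      have h0 : (a ::ₘ s).esymm 0 = s.esymm 0 := by simp [Multiset.esymm]
      rw [h0]
      ring

noncomputable def qesymm (M : Multiset ℕ) (k : ℕ) : ℤ[X] :=
  (M.map fun e => (X : ℤ[X]) ^ e).esymm k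

lemma qesymm_finset {β : Type*} (S : Finset β) (f : β → ℕ) (k : ℕ) :
    qesymm (S.val.map f) k = ∑ B ∈ S.powersetCard k, (X : ℤ[X]) ^ (∑ y ∈ B, f y) := by
  rw [qesymm, Multiset.map_map, Finset.esymm_map_val]
  exact sum_congr rfl fun B _ => by simp [Finset.prod_pow_eq_pow_sum]

noncomputable def lsum (D C : Finset α) (b : ℕ) : ℤ[X] :=
  ∑ B ∈ (D \ C).powersetCard b, (X : ℤ[X]) ^ (invc (D \ B) B + invc B C)

noncomputable def rsum (D C : Finset α) (i : ℕ) : ℤ[X] :=
  ∑ B ∈ (C \ D).powersetCard i, (X : ℤ[X]) ^ (invc D B + invc B (C \ B))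

lemma sum_phi (D C B : Finset α) : ∑ y ∈ B, phiW D C y = invc D B + invc B C := by
  rw [invc_eq_right D B]
  simp [phiW, invc, sum_add_distrib]

lemma lsum_eq (D C : Finset α) (b : ℕ) :
    qesymm ((D \ C).val.map (phiW D C)) b = X ^ (b.choose 2) * lsum D C b := by
  rw [qesymm_finset, lsum, mul_sum]
  refine sum_congr rfl fun B hB => ?_
  obtain ⟨hBD, rfl⟩ := mem_powersetCard.1 hB
  have hBD' : B ⊆ D := hBD.trans sdiff_subset
  have : invc D B = invc (D \ B) B + invc B B := by
    rw [← invc_union_left sdiff_disjoint, sdiff_union_of_subset hBD']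
  rw [← pow_add, sum_phi, this, invc_self]
  congr 1; omega

lemma rsum_eq (D C : Finset α) (i : ℕ) :
    qesymm ((C \ D).val.map (phiW D C)) i = X ^ (i.choose 2) * rsum D C i := by
  rw [qesymm_finset, rsum, mul_sum]
  refine sum_congr rfl fun B hB => ?_
  obtain ⟨hB', rfl⟩ := mem_powersetCard.1 hB
  have hB'' : B ⊆ C := hB'.trans sdiff_subset
  have : invc B C = invc B B + invc B (C \ B) := by
    rw [← invc_union_right B disjoint_sdiff, union_sdiff_of_subset hB'']
  rw [← pow_add, sum_phi, this, invc_self]
  congr 1; omega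

lemma choose_two_add (i j : ℕ) : (i + j).choose 2 = i.choose 2 + j.choose 2 + i * j := by
  induction j with
  | zero => simp
  | succ j ih =>
    have h1 : ∀ k, (k + 1).choose 2 = k + k.choose 2 := fun k => by
      rw [Nat.choose_succ_succ', Nat.choose_one_right]
    rw [← add_assoc, h1, h1, Nat.mul_succ]
    omega

lemma le_sum_of_le (s : ℕ) : ∀ J : Finset ℕ, (∀ x ∈ J, s ≤ x) →
    #J * s + (#J).choose 2 ≤ ∑ x ∈ J, x := by
  intro J
  induction J using Finset.induction_on_max with
  | empty => simp
  | insert a t ht ih =>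
    intro h
    have hat : a ∉ t := fun h => lt_irrefl a (ht a h)
    have h1 := ih fun x hx => h x (mem_insert_of_mem hx)
    have h2 : t ⊆ Finset.Ico s a := fun x hx =>
      mem_Ico.2 ⟨h x (mem_insert_of_mem hx), ht x hx⟩
    have h3 := card_le_card h2
    rw [Nat.card_Ico] at h3
    have h4 := h a (mem_insert_self a t)
    have h5 : (#t + 1).choose 2 = #t + (#t).choose 2 := by
      rw [Nat.choose_succ_succ', Nat.choose_one_right]
    rw [sum_insert hat, card_insert_of_notMem hat, h5, Nat.succ_mul]
    omega

/-- The coefficient of the `i`-th child in the move. -/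
noncomputable def kcoef (m b s i : ℕ) : ℕ[X] :=
  ∑ J ∈ (Finset.Ico s m).powersetCard (b - i),
    X ^ (i.choose 2 + (∑ x ∈ J, x) - b.choose 2)

noncomputable def castZ : ℕ[X] →+* ℤ[X] := mapRingHom (Nat.castRingHom ℤ)

lemma kcoef_spec {m b s i : ℕ} (hib : i ≤ b) (his : i ≤ s) :
    X ^ (b.choose 2) * castZ (kcoef m b s i)
      = X ^ (i.choose 2) * qesymm (Multiset.Ico s m) (b - i) := by
  have e : Multiset.Ico s m = (Finset.Ico s m).val.map id := (Multiset.map_id _).symm
  rw [e, qesymm_finset, mul_sum, kcoef, map_sum, mul_sum]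
  refine sum_congr rfl fun J hJ => ?_
  obtain ⟨hJ', hc⟩ := mem_powersetCard.1 hJ
  have h1 := le_sum_of_le s J fun x hx => (mem_Ico.1 (hJ' hx)).1
  have h2 := choose_two_add i (b - i)
  rw [Nat.add_sub_cancel' hib] at h2
  have h3 : i * (b - i) ≤ (b - i) * s := by
    rw [mul_comm]; exact Nat.mul_le_mul_left _ his
  rw [hc] at h1
  rw [← pow_add]
  simp only [castZ, map_pow, coe_mapRingHom, Polynomial.map_X, id]
  rw [← pow_add]
  congr 1; omega

lemma local_identity (D C : Finset α) (b : ℕ) (h : #C ≤ #D) :
    lsum D C b = ∑ i ∈ range (b + 1) with i ≤ #C, castZ (kcoef (#D) b (#C) i) * rsum D C i := by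
  refine mul_left_cancel₀ (pow_ne_zero (b.choose 2) Polynomial.X_ne_zero) ?_
  rw [← lsum_eq, phi_key D C h, qesymm, Multiset.map_add, esymm_add,
    Nat.sum_antidiagonal_eq_sum_range_succ_mk, mul_sum, sum_filter]
  refine sum_congr rfl fun i hi => ?_
  change qesymm ((C \ D).val.map (phiW D C)) i * qesymm (Multiset.Ico (#C) (#D)) (b - i) = _
  rw [rsum_eq]
  split_ifs with his
  · rw [← mul_assoc, kcoef_spec (by simpa [Nat.lt_succ_iff] using hi) his]
    ring
  · have : rsum D C i = 0 := by
      rw [rsum, powersetCard_eq_empty.2, sum_empty]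
      exact (card_le_card sdiff_subset).trans_lt (not_le.1 his)
    simp [this]

end Vale.Agent.P066
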