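import Vale.Agent.P066.Local

/-! Weighted quotient graphs and the three identities (flip, merge, move). -/

open Finset Polynomial
open scoped Classical

noncomputable section

namespace Vale.Agent.P066

/-- Factor attached to an ordered pair of colour sets, present when `e` holds. -/
def pairW {N : ℕ} (e : Prop) (A B : Finset (Fin N)) : ℤ[X] :=
  if e then (if Disjoint A B then X ^ invc A B else 0) else 1

def asg {l : ℕ} (N : ℕ) (w : Fin l → ℕ) : Finset (Fin l → Finset (Fin N)) :=
  Fintype.piFinset fun a => (univ : Finset (Fin N)).powersetCard (w a)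

def weight {l N : ℕ} (E : Fin l → Fin l → Prop) (S : Fin l → Finset (Fin N)) : ℤ[X] :=
  ∏ a, ∏ b, pairW (E a b) (S a) (S b)

def mono {l N : ℕ} (S : Fin l → Finset (Fin N)) : MvPolynomial (Fin N) ℤ[X] :=
  ∏ a, ∏ c ∈ S a, MvPolynomial.X c

def term {l N : ℕ} (E : Fin l → Fin l → Prop) (S : Fin l → Finset (Fin N)) :
    MvPolynomial (Fin N) ℤ[X] :=
  MvPolynomial.C (weight E S) * mono S

/-- The quotient generating function: one colour set of size `w a` for each class. -/
def gfun {l : ℕ} (N : ℕ) (w : Fin l → ℕ) (E : Fin l → Fin l → Prop) :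
    MvPolynomial (Fin N) ℤ[X] :=
  ∑ S ∈ asg N w, term E S

variable {l N : ℕ}

lemma mem_asg {w : Fin l → ℕ} {S : Fin l → Finset (Fin N)} :
    S ∈ asg N w ↔ ∀ a, #(S a) = w a := by
  simp [asg, mem_powersetCard]

lemma pairW_false {e : Prop} (h : ¬e) (A B : Finset (Fin N)) : pairW e A B = 1 := if_neg h

lemma pairW_empty_left (e : Prop) (B : Finset (Fin N)) : pairW e (∅ : Finset (Fin N)) B = 1 := by
  unfold pairW; split_ifs <;> simp_all [invc]

lemma pairW_empty_right (e : Prop) (A : Finset (Fin N)) : pairW e A (∅ : Finset (Fin N)) = 1 := by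
  unfold pairW; split_ifs <;> simp_all [invc]

lemma pairW_union_left (e : Prop) {A A' : Finset (Fin N)} (h : Disjoint A A')
    (B : Finset (Fin N)) : pairW e (A ∪ A') B = pairW e A B * pairW e A' B := by
  unfold pairW
  split_ifs <;> simp_all [invc_union_left, pow_add, disjoint_union_left]

lemma pairW_union_right (e : Prop) (A : Finset (Fin N)) {B B' : Finset (Fin N)}
    (h : Disjoint B B') : pairW e A (B ∪ B') = pairW e A B * pairW e A B' := by
  unfold pairW
  split_ifs <;> simp_all [invc_union_right, pow_add, disjoint_union_right]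

lemma weight_eq_zero {E : Fin l → Fin l → Prop} {S : Fin l → Finset (Fin N)} {a b : Fin l}
    (hE : E a b) (h : ¬Disjoint (S a) (S b)) : weight E S = 0 :=
  prod_eq_zero (mem_univ a) (prod_eq_zero (mem_univ b) (by simp [pairW, hE, h]))

lemma gfun_eq_filter (w : Fin l → ℕ) {E : Fin l → Fin l → Prop} {a b : Fin l} (hE : E a b) :
    gfun N w E = ∑ S ∈ (asg N w).filter (fun S => Disjoint (S a) (S b)), term E S := by
  rw [gfun, sum_filter_of_ne]
  intro S _ hne
  by_contra h
  exact hne (by simp [term, weight_eq_zero hE h])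

/-- Assignments with `S a`, `S b` disjoint correspond to an assignment of the union and a choice
of the part of colour class `b`. -/
lemma sum_split {M : Type*} [AddCommMonoid M] (w : Fin l → ℕ) {a b : Fin l} (hab : a ≠ b)
    (F : (Fin l → Finset (Fin N)) → M) :
    ∑ S ∈ (asg N w).filter (fun S => Disjoint (S a) (S b)), F S =
      ∑ K ∈ asg N (Function.update (Function.update w a (w a + w b)) b 0),
        ∑ B ∈ (K a).powersetCard (w b),
          F (Function.update (Function.update K a (K a \ B)) b B) := by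
  rw [sum_sigma']
  refine sum_bij'
    (fun S _ => ⟨Function.update (Function.update S a (S a ∪ S b)) b ∅, S b⟩)
    (fun p _ => Function.update (Function.update p.1 a (p.1 a \ p.2)) b p.2) ?_ ?_ ?_ ?_ ?_
  · intro S hS
    simp only [mem_filter, mem_asg] at hS
    simp only [mem_sigma, mem_asg, mem_powersetCard]
    refine ⟨fun c => ?_, ?_, hS.1 b⟩
    · by_cases hcb : c = b
      · subst hcb; simp
      · by_cases hca : c = a
        · subst hca; simp [Function.update_of_ne hcb, card_union_of_disjoint hS.2, hS.1]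
        · simp [Function.update_of_ne hcb, Function.update_of_ne hca, hS.1]
    · simp [Function.update_of_ne hab]
  · rintro ⟨K, B⟩ hp
    simp only [mem_sigma, mem_asg, mem_powersetCard] at hp
    obtain ⟨hK, hB, hBc⟩ := hp
    have hKa : #(K a) = w a + w b := by
      simpa [Function.update_of_ne hab] using hK a
    simp only [mem_filter, mem_asg]
    refine ⟨fun c => ?_, ?_⟩
    · by_cases hcb : c = b
      · subst hcb; simp [hBc]
      · by_cases hca : c = a
        · subst hca
          simp [Function.update_of_ne hcb, card_sdiff_of_subset hB, hBc, hKa]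
        · simpa [Function.update_of_ne hcb, Function.update_of_ne hca] using hK c
    · simp [Function.update_of_ne hab, sdiff_disjoint]
  · intro S hS
    simp only [mem_filter] at hS
    funext c
    by_cases hcb : c = b
    · subst hcb; simp
    · by_cases hca : c = a
      · subst hca
        simp [Function.update_of_ne hcb, union_sdiff_cancel_right hS.2]
      · simp [Function.update_of_ne hcb, Function.update_of_ne hca]
  · rintro ⟨K, B⟩ hp
    simp only [mem_sigma, mem_asg, mem_powersetCard] at hp
    obtain ⟨hK, hB, hBc⟩ := hp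
    have hKb : K b = ∅ := by simpa using hK b
    simp only [Sigma.mk.injEq, Function.update_self, heq_eq_eq, and_true]
    funext c
    by_cases hcb : c = b
    · subst hcb; simp [hKb]
    · by_cases hca : c = a
      · subst hca; simp [Function.update_of_ne hcb, sdiff_union_of_subset hB]
      · simp [Function.update_of_ne hcb, Function.update_of_ne hca]
  · intro S hS
    simp only [mem_filter] at hS
    congr 1
    funext c
    by_cases hcb : c = b
    · subst hcb; simp
    · by_cases hca : c = a
      · subst hca; simp [Function.update_of_ne hcb, union_sdiff_cancel_right hS.2]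
      · simp [Function.update_of_ne hcb, Function.update_of_ne hca]

lemma prod_split {M : Type*} [CommMonoid M] (T : Finset (Fin l)) (f : Fin l → Fin l → M) :
    ∏ a, ∏ b, f a b = (∏ a ∈ T, ∏ b ∈ T, f a b) *
      ((∏ c ∈ Tᶜ, (∏ a ∈ T, f a c) * ∏ a ∈ T, f c a) * ∏ a ∈ Tᶜ, ∏ b ∈ Tᶜ, f a b) := by
  have e : ∀ a, ∏ b, f a b = (∏ b ∈ T, f a b) * ∏ b ∈ Tᶜ, f a b := fun a =>
    (prod_mul_prod_compl T _).symm
  simp only [e]
  rw [← prod_mul_prod_compl T]
  simp only [prod_mul_distrib]
  rw [prod_comm (s := T) (t := Tᶜ)]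
  simp only [mul_assoc]

/-- The move: `α`, `β`, `σ` form an induced path, `α`, `β` are twins outside of it. -/
structure MoveHyp (w : Fin l → ℕ) (E : Fin l → Fin l → Prop) (a b s : Fin l) : Prop where
  ab : a ≠ b
  as : a ≠ s
  bs : b ≠ s
  edge : ∀ x y, (x = a ∨ x = b ∨ x = s) → (y = a ∨ y = b ∨ y = s) →
    (E x y ↔ (x = a ∧ y = b) ∨ (x = b ∧ y = s))
  twin : ∀ c, c ≠ a → c ≠ b → c ≠ s → w c ≠ 0 → (E c a ↔ E c b) ∧ (E a c ↔ E b c)
  le : w s ≤ w a + w b

def childW (w : Fin l → ℕ) (a b s : Fin l) (i : ℕ) : Fin l → ℕ :=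
  Function.update (Function.update (Function.update w a (w a + w b)) b i) s (w s - i)

def childE (E : Fin l → Fin l → Prop) (a b s : Fin l) : Fin l → Fin l → Prop := fun x y =>
  if (x = a ∨ x = b ∨ x = s) ∧ (y = a ∨ y = b ∨ y = s) then E x y
  else E (if x = b then s else x) (if y = b then s else y)

lemma gfun_move {w : Fin l → ℕ} {E : Fin l → Fin l → Prop} {a b s : Fin l}
    (h : MoveHyp w E a b s) :
    gfun N w E = ∑ i ∈ range (w b + 1) with i ≤ w s,
      MvPolynomial.C (castZ (kcoef (w a + w b) (w b) (w s) i)) *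
        gfun N (childW w a b s i) (childE E a b s) := by
  have hab := h.ab
  have has := h.as
  have hbs := h.bs
  set T : Finset (Fin l) := {a, b, s} with hT
  have prod3 : ∀ {M : Type} [CommMonoid M] (f : Fin l → M),
      ∏ x ∈ T, f x = f a * (f b * f s) := by
    intro M _ f
    rw [hT, prod_insert (by simp [hab, has]), prod_insert (by simp [hbs]), prod_singleton]
  have hnT : ∀ c ∈ Tᶜ, c ≠ a ∧ c ≠ b ∧ c ≠ s := by
    intro c hc; simpa [hT] using hc
  set w0 := Function.update (Function.update w a (w a + w b)) b 0 with hw0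
  let common : (Fin l → Finset (Fin N)) → MvPolynomial (Fin N) ℤ[X] := fun K =>
    MvPolynomial.C ((∏ c ∈ Tᶜ, (pairW (E a c) (K a) (K c) * pairW (E s c) (K s) (K c)) *
        (pairW (E c a) (K c) (K a) * pairW (E c s) (K c) (K s))) *
      ∏ x ∈ Tᶜ, ∏ y ∈ Tᶜ, pairW (E x y) (K x) (K y)) *
    ((∏ c ∈ K a, MvPolynomial.X c) * ((∏ c ∈ K s, MvPolynomial.X c) *
      ∏ x ∈ Tᶜ, ∏ c ∈ K x, MvPolynomial.X c))
  have mono_eq : ∀ S : Fin l → Finset (Fin N), (mono S : MvPolynomial (Fin N) ℤ[X]) =
      ((∏ c ∈ S a, MvPolynomial.X c) * ((∏ c ∈ S b, MvPolynomial.X c) *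
        ∏ c ∈ S s, MvPolynomial.X c)) * ∏ x ∈ Tᶜ, ∏ c ∈ S x, MvPolynomial.X c := by
    intro S
    rw [mono, ← prod_mul_prod_compl T, prod3]
  have hK : ∀ K ∈ asg N w0, #(K a) = w a + w b ∧ #(K s) = w s ∧
      ∀ c ∈ Tᶜ, w c = 0 → K c = ∅ := by
    intro K hK
    rw [mem_asg] at hK
    refine ⟨by simpa [hw0, hab] using hK a, by simpa [hw0, has.symm, hbs.symm] using hK s, ?_⟩
    intro c hc h0
    obtain ⟨hca, hcb, -⟩ := hnT c hc
    simpa [hw0, hca, hcb, h0] using hK c
  -- left side
  have hL : gfun N w E = ∑ K ∈ asg N w0, common K *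
      MvPolynomial.C (lsum (K a) (K s) (w b)) := by
    rw [gfun_eq_filter w ((h.edge a b (by simp) (by simp)).2 (by simp)), sum_split w hab]
    refine sum_congr rfl fun K hKm => ?_
    rw [lsum, map_sum, mul_sum]
    have hsub : (K a \ K s).powersetCard (w b) =
        ((K a).powersetCard (w b)).filter (fun B => Disjoint B (K s)) := by
      ext B; simp [mem_powersetCard, subset_sdiff]; tauto
    rw [hsub, sum_filter]
    refine sum_congr rfl fun B hB => ?_
    obtain ⟨hBD, hBc⟩ := mem_powersetCard.1 hB
    set S := Function.update (Function.update K a (K a \ B)) b B with hS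
    have Sa : S a = K a \ B := by simp [hS, hab]
    have Sb : S b = B := by simp [hS]
    have Ss : S s = K s := by simp [hS, has.symm, hbs.symm]
    have So : ∀ c ∈ Tᶜ, S c = K c := by
      intro c hc
      obtain ⟨hca, hcb, -⟩ := hnT c hc
      simp [hS, hca, hcb]
    rw [term, weight, prod_split T, mono_eq]
    have hTT : ∏ x ∈ T, ∏ y ∈ T, pairW (E x y) (S x) (S y) =
        if Disjoint B (K s) then X ^ (invc (K a \ B) B + invc B (K s)) else 0 := by
      simp only [prod3]
      simp [h.edge, pairW, Sa, Sb, Ss, hab, has, hbs, hab.symm, has.symm, hbs.symm,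
        sdiff_disjoint, pow_add]
    have hTO : ∀ c ∈ Tᶜ,
        (∏ x ∈ T, pairW (E x c) (S x) (S c)) * (∏ x ∈ T, pairW (E c x) (S c) (S x)) =
        (pairW (E a c) (K a) (K c) * pairW (E s c) (K s) (K c)) *
          (pairW (E c a) (K c) (K a) * pairW (E c s) (K c) (K s)) := by
      intro c hc
      obtain ⟨hca, hcb, hcs⟩ := hnT c hc
      rw [prod3, prod3, So c hc, Sa, Sb, Ss]
      by_cases h0 : w c = 0
      · simp [(hK K hKm).2.2 c hc h0, pairW_empty_left, pairW_empty_right]
      · obtain ⟨h1, h2⟩ := h.twin c hca hcb hcs h0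
        have eL : pairW (E a c) (K a) (K c) =
            pairW (E a c) (K a \ B) (K c) * pairW (E a c) B (K c) := by
          rw [← pairW_union_left _ sdiff_disjoint, sdiff_union_of_subset hBD]
        have eR : pairW (E c a) (K c) (K a) =
            pairW (E c a) (K c) (K a \ B) * pairW (E c a) (K c) B := by
          rw [← pairW_union_right _ _ sdiff_disjoint, sdiff_union_of_subset hBD]
        rw [← propext h1, ← propext h2, eL, eR]
        ring
    have hOO : ∏ x ∈ Tᶜ, ∏ y ∈ Tᶜ, pairW (E x y) (S x) (S y) =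
        ∏ x ∈ Tᶜ, ∏ y ∈ Tᶜ, pairW (E x y) (K x) (K y) :=
      prod_congr rfl fun x hx => prod_congr rfl fun y hy => by rw [So x hx, So y hy]
    have hXO : ∏ x ∈ Tᶜ, ∏ c ∈ S x, (MvPolynomial.X c : MvPolynomial (Fin N) ℤ[X]) =
        ∏ x ∈ Tᶜ, ∏ c ∈ K x, MvPolynomial.X c :=
      prod_congr rfl fun x hx => by rw [So x hx]
    rw [hTT, prod_congr rfl hTO, hOO, hXO, Sa, Sb, Ss]
    have hmon : (∏ c ∈ K a, (MvPolynomial.X c : MvPolynomial (Fin N) ℤ[X])) =
        (∏ c ∈ K a \ B, MvPolynomial.X c) * ∏ c ∈ B, MvPolynomial.X c :=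
      (prod_sdiff hBD).symm
    simp only [common, hmon]
    split_ifs
    · simp only [map_mul]; ring
    · simp
  -- children
  have hR : ∀ i, i ≤ w s → gfun N (childW w a b s i) (childE E a b s) =
      ∑ K ∈ asg N w0, common K * MvPolynomial.C (rsum (K a) (K s) i) := by
    intro i hi
    have he : childE E a b s b s := by
      have := (h.edge b s (by simp) (by simp)).2 (by simp)
      simpa [childE] using this
    rw [gfun_eq_filter _ he]
    have key : Function.update (Function.update (childW w a b s i) s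
        (childW w a b s i s + childW w a b s i b)) b 0 = w0 := by
      funext c
      by_cases hcb : c = b
      · subst hcb; simp [hw0]
      · by_cases hcs : c = s
        · subst hcs
          simp [childW, hw0, hbs, has.symm, hbs.symm, Nat.sub_add_cancel hi]
        · simp [childW, hw0, hcb, hcs, Function.update_apply]
    have hsym : (asg N (childW w a b s i)).filter (fun S => Disjoint (S b) (S s)) =
        (asg N (childW w a b s i)).filter (fun S => Disjoint (S s) (S b)) :=
      filter_congr fun S _ => disjoint_comm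
    rw [hsym, sum_split _ hbs.symm, key]
    have hwb : childW w a b s i b = i := by simp [childW, hbs]
    rw [hwb]
    refine sum_congr rfl fun K hKm => ?_
    rw [rsum, map_sum, mul_sum]
    have hsub : (K s \ K a).powersetCard i =
        ((K s).powersetCard i).filter (fun B => Disjoint (K a) B) := by
      ext B; simp [mem_powersetCard, subset_sdiff, disjoint_comm]; tauto
    rw [hsub, sum_filter]
    refine sum_congr rfl fun B hB => ?_
    obtain ⟨hBD, hBc⟩ := mem_powersetCard.1 hB
    set S := Function.update (Function.update K s (K s \ B)) b B with hS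
    have Sa : S a = K a := by simp [hS, hab, has]
    have Sb : S b = B := by simp [hS]
    have Ss : S s = K s \ B := by simp [hS, hbs.symm]
    have So : ∀ c ∈ Tᶜ, S c = K c := by
      intro c hc
      obtain ⟨hca, hcb, hcs⟩ := hnT c hc
      simp [hS, hcs, hcb]
    rw [term, weight, prod_split T, mono_eq]
    have hTT : ∏ x ∈ T, ∏ y ∈ T, pairW (childE E a b s x y) (S x) (S y) =
        if Disjoint (K a) B then X ^ (invc (K a) B + invc B (K s \ B)) else 0 := by
      simp only [prod3]
      simp [childE, h.edge, pairW, Sa, Sb, Ss, hab, has, hbs, hab.symm, has.symm, hbs.symm,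
        disjoint_sdiff, pow_add]
    have hTO : ∀ c ∈ Tᶜ,
        (∏ x ∈ T, pairW (childE E a b s x c) (S x) (S c)) *
          (∏ x ∈ T, pairW (childE E a b s c x) (S c) (S x)) =
        (pairW (E a c) (K a) (K c) * pairW (E s c) (K s) (K c)) *
          (pairW (E c a) (K c) (K a) * pairW (E c s) (K c) (K s)) := by
      intro c hc
      obtain ⟨hca, hcb, hcs⟩ := hnT c hc
      rw [prod3, prod3, So c hc, Sa, Sb, Ss]
      simp only [childE, hca, hcb, hcs, hab, hbs.symm, or_self, and_false, false_and, if_false,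
        if_true]
      rw [← pairW_union_left _ disjoint_sdiff, ← pairW_union_right _ _ disjoint_sdiff,
        union_sdiff_of_subset hBD]
    have hOO : ∏ x ∈ Tᶜ, ∏ y ∈ Tᶜ, pairW (childE E a b s x y) (S x) (S y) =
        ∏ x ∈ Tᶜ, ∏ y ∈ Tᶜ, pairW (E x y) (K x) (K y) := by
      refine prod_congr rfl fun x hx => prod_congr rfl fun y hy => ?_
      obtain ⟨hxa, hxb, hxs⟩ := hnT x hx
      obtain ⟨hya, hyb, hys⟩ := hnT y hy
      rw [So x hx, So y hy]
      simp [childE, hxa, hxb, hxs, hyb]
    have hXO : ∏ x ∈ Tᶜ, ∏ c ∈ S x, (MvPolynomial.X c : MvPolynomial (Fin N) ℤ[X]) =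
        ∏ x ∈ Tᶜ, ∏ c ∈ K x, MvPolynomial.X c :=
      prod_congr rfl fun x hx => by rw [So x hx]
    rw [hTT, prod_congr rfl hTO, hOO, hXO, Sa, Sb, Ss]
    have hmon : (∏ c ∈ K s, (MvPolynomial.X c : MvPolynomial (Fin N) ℤ[X])) =
        (∏ c ∈ K s \ B, MvPolynomial.X c) * ∏ c ∈ B, MvPolynomial.X c :=
      (prod_sdiff hBD).symm
    simp only [common, hmon]
    split_ifs
    · simp only [map_mul]; ring
    · simp
  rw [hL]
  have hR' : ∀ i ∈ (range (w b + 1)).filter (fun i => i ≤ w s),
      MvPolynomial.C (castZ (kcoef (w a + w b) (w b) (w s) i)) *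
        gfun N (childW w a b s i) (childE E a b s) =
      ∑ K ∈ asg N w0, MvPolynomial.C (castZ (kcoef (w a + w b) (w b) (w s) i)) *
        (common K * MvPolynomial.C (rsum (K a) (K s) i)) := by
    intro i hi
    rw [hR i (mem_filter.1 hi).2, mul_sum]
  rw [sum_congr rfl hR', sum_comm]
  refine sum_congr rfl fun K hKm => ?_
  obtain ⟨hKa, hKs, -⟩ := hK K hKm
  rw [local_identity (K a) (K s) (w b) (by rw [hKa, hKs]; exact h.le), hKa, hKs, map_sum, mul_sum]
  refine sum_congr rfl fun i _ => ?_
  rw [map_mul]; ring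

/-- Two adjacent twins may be merged. -/
structure MergeHyp (w : Fin l → ℕ) (E : Fin l → Fin l → Prop) (a b : Fin l) : Prop where
  ab : a ≠ b
  edge : E a b
  noBack : ¬E b a ∧ ¬E a a ∧ ¬E b b
  twin : ∀ c, c ≠ a → c ≠ b → w c ≠ 0 → (E c a ↔ E c b) ∧ (E a c ↔ E b c)

def mergeW (w : Fin l → ℕ) (a b : Fin l) : Fin l → ℕ :=
  Function.update (Function.update w a (w a + w b)) b 0

lemma gfun_merge {w : Fin l → ℕ} {E : Fin l → Fin l → Prop} {a b : Fin l}
    (h : MergeHyp w E a b) :
    gfun N w E = MvPolynomial.C (castZ (kcoef (w a + w b) (w b) 0 0)) *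
      gfun N (mergeW w a b) E := by
  obtain ⟨hab, heab, ⟨hba, haa, hbb⟩, htwin⟩ := h
  rw [gfun_eq_filter w heab, sum_split w hab, gfun, mul_sum]
  refine sum_congr rfl fun K hKm => ?_
  have hK := mem_asg.1 hKm
  have hKb : K b = ∅ := by simpa [mergeW] using hK b
  have hKa : #(K a) = w a + w b := by simpa [mergeW, hab] using hK a
  set T : Finset (Fin l) := {a, b} with hT
  have prod2 : ∀ {M : Type} [CommMonoid M] (f : Fin l → M), ∏ x ∈ T, f x = f a * f b :=
    fun f => prod_pair hab
  have hnT : ∀ c ∈ Tᶜ, c ≠ a ∧ c ≠ b := by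
    intro c hc; simpa [hT] using hc
  have step : ∀ B ∈ (K a).powersetCard (w b),
      term E (Function.update (Function.update K a (K a \ B)) b B) =
        MvPolynomial.C (X ^ invc (K a \ B) B) * term E K := by
    intro B hB
    obtain ⟨hBD, -⟩ := mem_powersetCard.1 hB
    set S := Function.update (Function.update K a (K a \ B)) b B with hS
    have Sa : S a = K a \ B := by simp [hS, hab]
    have Sb : S b = B := by simp [hS]
    have So : ∀ c ∈ Tᶜ, S c = K c := by
      intro c hc
      obtain ⟨hca, hcb⟩ := hnT c hc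
      simp [hS, hca, hcb]
    have hw : weight E S = X ^ invc (K a \ B) B * weight E K := by
      rw [weight, weight, prod_split T, prod_split T]
      have h1 : ∏ x ∈ T, ∏ y ∈ T, pairW (E x y) (S x) (S y) = X ^ invc (K a \ B) B := by
        simp only [prod2, Sa, Sb]
        simp [pairW, heab, hba, haa, hbb, sdiff_disjoint]
      have h2 : ∏ x ∈ T, ∏ y ∈ T, pairW (E x y) (K x) (K y) = 1 := by
        simp only [prod2, hKb]
        simp [pairW_false, hba, haa, hbb, pairW_empty_right]
      have h3 : ∀ c ∈ Tᶜ,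
          (∏ x ∈ T, pairW (E x c) (S x) (S c)) * (∏ x ∈ T, pairW (E c x) (S c) (S x)) =
          (∏ x ∈ T, pairW (E x c) (K x) (K c)) * (∏ x ∈ T, pairW (E c x) (K c) (K x)) := by
        intro c hc
        obtain ⟨hca, hcb⟩ := hnT c hc
        simp only [prod2, So c hc, Sa, Sb, hKb, pairW_empty_left, pairW_empty_right, mul_one]
        by_cases h0 : w c = 0
        · have : K c = ∅ := by simpa [mergeW, hca, hcb, h0] using hK c
          simp [this, pairW_empty_left, pairW_empty_right]
        · obtain ⟨e1, e2⟩ := htwin c hca hcb h0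
          rw [← propext e1, ← propext e2, ← pairW_union_left _ sdiff_disjoint,
            ← pairW_union_right _ _ sdiff_disjoint, sdiff_union_of_subset hBD]
      rw [h1, h2, one_mul, prod_congr rfl h3]
      congr 2
      exact prod_congr rfl fun x hx => prod_congr rfl fun y hy => by rw [So x hx, So y hy]
    have hm : (mono S : MvPolynomial (Fin N) ℤ[X]) = mono K := by
      rw [mono, mono, ← prod_mul_prod_compl T, ← prod_mul_prod_compl T, prod2, prod2, Sa, Sb,
        hKb, prod_empty, mul_one, prod_sdiff hBD]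
      congr 1
      exact prod_congr rfl fun x hx => by rw [So x hx]
    rw [term, term, hw, hm, map_mul, mul_assoc]
  rw [sum_congr rfl step, ← sum_mul, ← map_sum]
  congr 2
  have := local_identity (K a) ∅ (w b) (by simp)
  have hr : rsum (K a) ∅ 0 = 1 := by simp [rsum, invc]
  have hf : (range (w b + 1)).filter (fun i => i ≤ #(∅ : Finset (Fin N))) = {0} := by
    ext i; simp
  rw [hf, sum_singleton, hr, mul_one, card_empty, hKa] at this
  rw [← this, lsum, sdiff_empty]
  simp [invc]

lemma gfun_flip (w : Fin l → ℕ) (E : Fin l → Fin l → Prop) :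
    gfun N w (fun a b => E b a) = MvPolynomial.rename Fin.rev (gfun N w E) := by
  simp only [gfun, map_sum]
  let R : Finset (Fin N) → Finset (Fin N) := fun A => A.map Fin.revPerm.toEmbedding
  have RR : ∀ A, R (R A) = A := fun A => by ext x; simp [R, Fin.revPerm]
  have hinv : ∀ A B, invc (R B) (R A) = invc A B := by
    intro A B
    rw [invc_eq_right]
    simp [invc, R, filter_map, Function.comp_def, Fin.revPerm]
  refine sum_bij' (fun S _ a => R (S a)) (fun S _ a => R (S a)) ?_ ?_ ?_ ?_ ?_
  · intro S hS; simpa [mem_asg, R] using hS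
  · intro S hS; simpa [mem_asg, R] using hS
  · intro S _; funext a; exact RR _
  · intro S _; funext a; exact RR _
  · intro S _
    have hw : weight E (fun a => R (S a)) = weight (fun a b => E b a) S := by
      rw [weight, weight, prod_comm]
      refine prod_congr rfl fun a _ => prod_congr rfl fun b _ => ?_
      simp only [pairW, hinv, disjoint_comm (a := R (S b))]
      simp [R]
    simp only [term, map_mul, MvPolynomial.rename_C, hw]
    congr 1
    simp only [mono, map_prod, MvPolynomial.rename_X]
    simp [R, Fin.revPerm]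

lemma gfun_base {w : Fin l → ℕ} {E : Fin l → Fin l → Prop}
    (h : ∀ a b, E a b → w a = 0 ∨ w b = 0) :
    gfun N w E = ∏ a, MvPolynomial.esymm (Fin N) ℤ[X] (w a) := by
  have : ∀ S ∈ asg N w, term E S = mono S := by
    intro S hS
    rw [mem_asg] at hS
    have : weight E S = 1 := by
      refine prod_eq_one fun a _ => prod_eq_one fun b _ => ?_
      by_cases he : E a b
      · rcases h a b he with h0 | h0
        · rw [card_eq_zero.1 ((hS a).trans h0), pairW_empty_left]
        · rw [card_eq_zero.1 ((hS b).trans h0), pairW_empty_right]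
      · exact pairW_false he _ _
    rw [term, this, map_one, one_mul]
  rw [gfun, sum_congr rfl this]
  exact (prod_univ_sum (fun a => (univ : Finset (Fin N)).powersetCard (w a))
    (fun _ t => ∏ c ∈ t, (MvPolynomial.X c : MvPolynomial (Fin N) ℤ[X]))).symm

end Vale.Agent.P066
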