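import Vale.Agent.P066.Quot

/-! The class of reducible quotient graphs and elementary positivity for it. -/

open Finset Polynomial
open scoped Classical

noncomputable section

namespace Vale.Agent.P066

/-- `Reducible w E`: the weighted quotient `(w, E)` can be brought to edgeless quotients by
reversal, merging adjacent twins and the twin-path move. -/
inductive Reducible {l : ℕ} : (Fin l → ℕ) → (Fin l → Fin l → Prop) → Prop
  | base (w : Fin l → ℕ) (E : Fin l → Fin l → Prop) (h : ∀ a b, E a b → w a = 0 ∨ w b = 0) :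
      Reducible w E
  | flip (w : Fin l → ℕ) (E : Fin l → Fin l → Prop) (h : Reducible w E) :
      Reducible w (fun a b => E b a)
  | merge (w : Fin l → ℕ) (E : Fin l → Fin l → Prop) (a b : Fin l) (h : MergeHyp w E a b)
      (h' : Reducible (mergeW w a b) E) : Reducible w E
  | move (w : Fin l → ℕ) (E : Fin l → Fin l → Prop) (a b s : Fin l) (h : MoveHyp w E a b s)
      (h' : ∀ i, i ≤ w b → i ≤ w s → Reducible (childW w a b s i) (childE E a b s)) :
      Reducible w E

/-- A family of polynomials (one for each number of variables) with an expansion in elementary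
symmetric functions having coefficients in `ℕ[q]`, uniformly in the number of variables. -/
def EPositive (n : ℕ) (P : ∀ N : ℕ, MvPolynomial (Fin N) ℤ[X]) : Prop :=
  ∃ c : Nat.Partition n → ℕ[X], ∀ N : ℕ, P N =
    ∑ μ : Nat.Partition n,
      MvPolynomial.C ((c μ).map (Nat.castRingHom ℤ)) * MvPolynomial.esymmPart (Fin N) ℤ[X] μ

lemma EPositive.congr {n : ℕ} {P P' : ∀ N : ℕ, MvPolynomial (Fin N) ℤ[X]}
    (h : ∀ N, P N = P' N) (hP : EPositive n P') : EPositive n P := by
  obtain ⟨c, hc⟩ := hP
  exact ⟨c, fun N => (h N).trans (hc N)⟩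

lemma EPositive.smul {n : ℕ} {P : ∀ N : ℕ, MvPolynomial (Fin N) ℤ[X]} (k : ℕ[X])
    (h : EPositive n P) : EPositive n (fun N => MvPolynomial.C (castZ k) * P N) := by
  obtain ⟨c, hc⟩ := h
  refine ⟨fun μ => k * c μ, fun N => ?_⟩
  show MvPolynomial.C (castZ k) * P N = _
  rw [hc N, mul_sum]
  refine sum_congr rfl fun μ _ => ?_
  rw [Polynomial.map_mul, map_mul, mul_assoc]
  rfl

lemma EPositive.sum {n : ℕ} {ι : Type*} (I : Finset ι)
    {P : ι → ∀ N : ℕ, MvPolynomial (Fin N) ℤ[X]} (h : ∀ i ∈ I, EPositive n (P i)) :
    EPositive n (fun N => ∑ i ∈ I, P i N) := by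
  induction I using Finset.induction_on with
  | empty => exact ⟨fun _ => 0, fun N => by simp⟩
  | insert i I hi ih =>
    obtain ⟨c, hc⟩ := h i (mem_insert_self i I)
    obtain ⟨d, hd⟩ := ih fun j hj => h j (mem_insert_of_mem hj)
    refine ⟨fun μ => c μ + d μ, fun N => ?_⟩
    show ∑ j ∈ insert i I, P j N = _
    rw [sum_insert hi, hc N, show ∑ j ∈ I, P j N = _ from hd N, ← sum_add_distrib]
    refine sum_congr rfl fun μ _ => ?_
    rw [Polynomial.map_add, map_add, add_mul]

lemma EPositive.rev {n : ℕ} {P : ∀ N : ℕ, MvPolynomial (Fin N) ℤ[X]} (h : EPositive n P) :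
    EPositive n (fun N => MvPolynomial.rename Fin.rev (P N)) := by
  obtain ⟨c, hc⟩ := h
  refine ⟨c, fun N => ?_⟩
  show MvPolynomial.rename Fin.rev (P N) = _
  rw [hc N, map_sum]
  refine sum_congr rfl fun μ _ => ?_
  rw [map_mul, MvPolynomial.rename_C, MvPolynomial.esymmPart, map_multiset_prod,
    Multiset.map_map]
  congr 2
  refine Multiset.map_congr rfl fun k _ => ?_
  exact MvPolynomial.rename_esymm (Fin N) ℤ[X] k Fin.revPerm

lemma epositive_prod_esymm {l : ℕ} (w : Fin l → ℕ) :
    EPositive (∑ a, w a) (fun N => ∏ a, MvPolynomial.esymm (Fin N) ℤ[X] (w a)) := by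
  let μ : Nat.Partition (∑ a, w a) :=
    Nat.Partition.ofSums _ (univ.val.map w) rfl
  refine ⟨fun ν => if ν = μ then 1 else 0, fun N => ?_⟩
  rw [sum_eq_single μ]
  · have : MvPolynomial.esymmPart (Fin N) ℤ[X] μ =
        ∏ a, MvPolynomial.esymm (Fin N) ℤ[X] (w a) := by
      rw [MvPolynomial.esymmPart, show μ.parts = (univ.val.map w).filter (fun k => k ≠ 0) from rfl]
      have key : ∀ M : Multiset ℕ, ((M.filter (fun k => k ≠ 0)).map
          (MvPolynomial.esymm (Fin N) ℤ[X])).prod =
            (M.map (MvPolynomial.esymm (Fin N) ℤ[X])).prod := by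
        intro M
        induction M using Multiset.induction_on with
        | empty => simp
        | cons k M ih =>
          by_cases hk : k = 0
          · simp [hk, ih, MvPolynomial.esymm_zero]
          · simp [hk, ih]
      rw [key, Multiset.map_map]
      rfl
    simp [this]
  · intro ν _ hν; simp [hν]
  · simp

lemma sum_update_pair {l : ℕ} (w : Fin l → ℕ) {a b : Fin l} (hab : a ≠ b) (x y : ℕ)
    (h : x + y = w a + w b) :
    ∑ c, Function.update (Function.update w a x) b y c = ∑ c, w c := by
  rw [← add_sum_erase univ _ (mem_univ a), ← add_sum_erase (univ.erase a) _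
    (mem_erase.2 ⟨hab.symm, mem_univ b⟩), ← add_sum_erase univ w (mem_univ a),
    ← add_sum_erase (univ.erase a) w (mem_erase.2 ⟨hab.symm, mem_univ b⟩)]
  have : ∀ c ∈ (univ.erase a).erase b,
      Function.update (Function.update w a x) b y c = w c := by
    intro c hc
    simp only [mem_erase] at hc
    simp [hc.1, hc.2.1]
  rw [sum_congr rfl this]
  simp only [Function.update_self, Function.update_of_ne hab]
  change x + (y + ((univ.erase a).erase b).sum w) = w a + (w b + ((univ.erase a).erase b).sum w)
  omega

lemma sum_childW {l : ℕ} {w : Fin l → ℕ} {E : Fin l → Fin l → Prop} {a b s : Fin l}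
    (h : MoveHyp w E a b s) {i : ℕ} (hi : i ≤ w s) :
    ∑ c, childW w a b s i c = ∑ c, w c := by
  rw [← sum_update_pair w h.ab (w a + w b) 0 (by simp)]
  have e : childW w a b s i = Function.update (Function.update
      (Function.update (Function.update w a (w a + w b)) b 0) b i) s (w s - i) := by
    simp [childW]
  rw [e]
  exact sum_update_pair _ h.bs _ _ (by simp [h.as.symm, h.bs.symm, Nat.add_sub_cancel' hi])

theorem epositive_of_reducible {l : ℕ} {w : Fin l → ℕ} {E : Fin l → Fin l → Prop}
    (h : Reducible w E) : EPositive (∑ a, w a) (fun N => gfun N w E) := by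
  induction h with
  | base w E h => exact (epositive_prod_esymm w).congr fun N => gfun_base h
  | flip w E _ ih => exact ih.rev.congr fun N => gfun_flip w E
  | merge w E a b h _ ih =>
    rw [mergeW, sum_update_pair w h.ab _ _ (by simp)] at ih
    exact (ih.smul _).congr fun N => gfun_merge h
  | move w E a b s h _ ih =>
    refine (EPositive.sum ((range (w b + 1)).filter (fun i => i ≤ w s))
      (P := fun i N => MvPolynomial.C (castZ (kcoef (w a + w b) (w b) (w s) i)) *
        gfun N (childW w a b s i) (childE E a b s)) fun i hi => ?_).congr fun N => gfun_move h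
    simp only [mem_filter, mem_range, Nat.lt_succ_iff] at hi
    have := ih i hi.1 hi.2
    rw [sum_childW h hi.2] at this
    exact this.smul _

end Vale.Agent.P066
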